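import Vale.Agent.P133K.Cmp
import Vale.Agent.P101K.Final
import Vale.Agent.P101K.Transfer

/-!
# P133: pure infiniteness and central sequences
-/

open scoped ENNReal Topology
open Filter Vale.Agent.P101K

namespace Vale.Agent.P133K

universe u

variable {A : Type u} [CStarAlgebra A] [Nontrivial A] {ω : Ultrafilter ℕ}

theorem aom_cmp {I J : Type} [Fintype J] [DecidableEq I]
    (h : ∀ b : A, Cmp (star b * b) I J) (b : Aom A ω) (η : ℝ) (hη : 0 < η) :
    ∃ z : J → I → Aom A ω, ∀ i i', ‖∑ j, star (z j i) * (star b * b) * z j i' -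
      (if i = i' then star b * b else 0)‖ ≤ η := by
  obtain ⟨B, rfl⟩ := omk_surjective A ω b
  obtain ⟨M, hM0, hM⟩ := cmp_bdd h (‖B‖ ^ 2) η (by positivity) hη
  have hB : ∀ n, ‖star (B n) * B n‖ ≤ ‖B‖ ^ 2 := fun n => by
    rw [CStarRing.norm_star_mul_self, ← sq]
    exact pow_le_pow_left₀ (norm_nonneg _) (aom_apply_le B n) 2
  choose y hy1 hy2 using fun n => hM (B n) (hB n)
  let Y : J → I → Bdd A := fun j i =>
    ⟨fun n => y n j i, memℓp_infty ⟨M, by rintro _ ⟨n, rfl⟩; exact hy1 n j i⟩⟩
  refine ⟨fun j i => omk A ω (Y j i), fun i i' => ?_⟩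
  have e1 : ∑ j, star (omk A ω (Y j i)) * (star (omk A ω B) * omk A ω B) * omk A ω (Y j i') -
      (if i = i' then star (omk A ω B) * omk A ω B else 0)
      = omk A ω (∑ j, star (Y j i) * (star B * B) * Y j i' -
        (if i = i' then star B * B else 0)) := by
    have e0 : omk A ω (if i = i' then star B * B else 0)
        = if i = i' then star (omk A ω B) * omk A ω B else 0 := by
      split_ifs
      · rw [map_mul, map_star]
      · rw [map_zero]
    rw [map_sub, map_sum, e0]
    simp only [map_mul, map_star]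
  rw [e1]
  refine le_of_tendsto (omk_norm A ω _) (Eventually.of_forall fun n => ?_)
  have e2 : (∑ j, star (Y j i) * (star B * B) * Y j i' -
      (if i = i' then star B * B else 0) : Bdd A) n
      = ∑ j, star (y n j i) * (star (B n) * B n) * y n j i' -
        (if i = i' then star (B n) * B n else 0) := by
    rw [aom_sub_apply]
    congr 1
    · rw [lp.coeFn_sum, Finset.sum_apply]
      rfl
    · split_ifs <;> rfl
  rw [e2]
  exact hy2 n i i'

theorem fom_comm (d : Fom A ω) (a : A) :
    (d : Aom A ω) * omk A ω (cst A a) = omk A ω (cst A a) * (d : Aom A ω) := by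
  have h := d.2
  unfold Fom at h
  rw [StarSubalgebra.mem_centralizer_iff] at h
  exact (h _ ⟨a, rfl⟩).1.symm

theorem half {q m N : ℕ} {ε' : ℝ} (h : ∀ b : A, Cmp (star b * b) (Fin m) (Fin N))
    (β : Blk q m ε' (Fom A ω)) (ι : Fin N → Fin (q + 1)) (hι : Function.Injective ι) (x : A)
    (hx : star x = x) (ε : ℝ) (hε : 0 < ε) :
    ∃ w : Fin N → Aom A ω,
      ‖star (∑ i, (β.b (ι i) : Aom A ω) * w i) *
        (omk A ω (cst A x) * omk A ω (cst A x)) * (∑ i, (β.b (ι i) : Aom A ω) * w i) -
        omk A ω (cst A x) * omk A ω (cst A x)‖ < ε := by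
  classical
  set X : Aom A ω := omk A ω (cst A x) with hX
  have hXs : star X = X := by
    rw [hX, ← map_star]
    congr 1
    ext n
    exact hx
  have hcomm : ∀ d : Fom A ω, (d : Aom A ω) * X = X * (d : Aom A ω) := fun d => fom_comm d x
  have hcommH : ∀ d : Fom A ω, (d : Aom A ω) * (X * X) = X * X * (d : Aom A ω) := fun d => by
    rw [← mul_assoc, hcomm, mul_assoc, hcomm, ← mul_assoc]
  set b : Fin (q + 1) → Aom A ω := fun i => (β.b i : Aom A ω) with hb
  set c : Fin m → Aom A ω := fun k => (β.x k : Aom A ω) with hc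
  set S : ℝ := ∑ k, ‖c k‖ with hS
  have hS0 : 0 ≤ S := Finset.sum_nonneg fun k _ => norm_nonneg _
  set g : Aom A ω := star (X * b 0) * (X * b 0) with hg
  obtain ⟨z, hz⟩ := aom_cmp h (X * b 0) (ε / (2 * (S + 1) ^ 2)) (by positivity)
  refine ⟨fun i => ∑ k, z i k * c k, ?_⟩
  set w : Fin N → Aom A ω := fun i => ∑ k, z i k * c k with hw
  -- relations
  have hbs : ∀ i, star (b i) * (X * X) = X * X * star (b i) := fun i => hcommH (star (β.b i))
  have hcs : ∀ k, star (c k) * (X * X) = X * X * star (c k) := fun k => hcommH (star (β.x k))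
  have hbb : ∀ i j, star (b (ι i)) * b (ι j) = if i = j then star (b 0) * b 0 else 0 := by
    intro i j
    by_cases hij : i = j
    · subst hij
      rw [if_pos rfl]
      exact congrArg Subtype.val (β.bsame (ι i))
    · rw [if_neg hij]
      exact congrArg Subtype.val (β.borth (ι i) (ι j) fun hh => hij (hι hh))
  have hge : g = X * X * (star (b 0) * b 0) := by
    rw [hg, star_mul, hXs]
    calc star (b 0) * X * (X * b 0) = star (b 0) * (X * X) * b 0 := by simp only [mul_assoc]
      _ = X * X * (star (b 0) * b 0) := by rw [hbs, mul_assoc]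
  have hmid : ∀ i j, star (b (ι i)) * (X * X) * b (ι j) = if i = j then g else 0 := by
    intro i j
    rw [hbs, mul_assoc, hbb]
    split_ifs
    · exact hge.symm
    · rw [mul_zero]
  have hcsum : ∑ k, star (c k) * (star (b 0) * b 0) * c k = 1 := by
    have h1 := congrArg (fun d : Fom A ω => (d : Aom A ω)) β.xsum
    simp only [AddSubmonoidClass.coe_finsetSum] at h1
    exact h1
  have hcg : ∑ k, star (c k) * g * c k = X * X := by
    calc ∑ k, star (c k) * g * c k = ∑ k, X * X * (star (c k) * (star (b 0) * b 0) * c k) := by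
          refine Finset.sum_congr rfl fun k _ => ?_
          rw [hge, ← mul_assoc (star (c k)), hcs]
          simp only [mul_assoc]
      _ = X * X := by rw [← Finset.mul_sum, hcsum, mul_one]
  -- first expansion
  have s1 : star (∑ i, b (ι i) * w i) * (X * X) * (∑ i, b (ι i) * w i)
      = ∑ i, star (w i) * g * w i := by
    have h1 := cmp_expand (h := X * X) (L := Unit) (fun _ i => b (ι i)) w w
    simp only [Finset.univ_unique, Finset.sum_singleton, hmid] at h1
    rw [h1, cmp_diag]
  have s2 : ∑ i, star (w i) * g * w i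
      = ∑ k, ∑ k', star (c k) * (∑ i, star (z i k) * g * z i k' - (if k = k' then g else 0))
        * c k' + X * X := by
    rw [hw, cmp_expand, ← hcg, ← cmp_diag c c, ← Finset.sum_add_distrib]
    refine Finset.sum_congr rfl fun k _ => ?_
    rw [← Finset.sum_add_distrib]
    refine Finset.sum_congr rfl fun k' _ => ?_
    rw [← add_mul, ← mul_add, sub_add_cancel]
  show ‖star (∑ i, b (ι i) * w i) * (X * X) * (∑ i, b (ι i) * w i) - X * X‖ < ε
  rw [s1, s2, add_sub_cancel_right]
  refine (cmp_quad c c _ _ fun k k' => hz k k').trans_lt ?_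
  have h2 : S * S ≤ (S + 1) ^ 2 := by nlinarith
  calc ε / (2 * (S + 1) ^ 2) * (∑ k, ‖c k‖) * ∑ k, ‖c k‖
      = ε / (2 * (S + 1) ^ 2) * (S * S) := by rw [mul_assoc]
    _ ≤ ε / (2 * (S + 1) ^ 2) * (S + 1) ^ 2 := mul_le_mul_of_nonneg_left h2 (by positivity)
    _ = ε / 2 := by field_simp
    _ < ε := by linarith

end Vale.Agent.P133K
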