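import Vale.Agent.P133K.Defs
import Vale.Agent.P133K.Ultra

/-!
# P133: the three notions of pure infiniteness and central sequences
-/

open scoped ENNReal Topology
open Filter Vale.Agent.P101K

namespace Vale.Agent.P133K

universe u

theorem propInf_iff {A : Type u} [CStarAlgebra A] (n : ℕ) (h : A) :
    PropInf n h ↔ Cmp h (Fin n ⊕ Fin n) (Fin n) := by
  have key : ∀ (x : Matrix (Fin n) (Fin n ⊕ Fin n) A) (i i' : Fin n ⊕ Fin n),
      (Matrix.conjTranspose x * (Matrix.diagonal fun _ : Fin n => h) * x -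
        Matrix.fromBlocks (Matrix.diagonal fun _ : Fin n => h) 0 0
          (Matrix.diagonal fun _ : Fin n => h)) i i'
        = ∑ j, star (x j i) * h * x j i' - (if i = i' then h else 0) := by
    intro x i i'
    rw [Matrix.sub_apply, Matrix.mul_apply]
    congr 1
    · refine Finset.sum_congr rfl fun j _ => ?_
      rw [Matrix.mul_diagonal, Matrix.conjTranspose_apply]
    · rcases i with i | i <;> rcases i' with i' | i' <;>
        simp [Matrix.diagonal_apply]
  constructor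
  · intro hh ε hε
    obtain ⟨x, hx⟩ := hh ε hε
    refine ⟨fun j i => x j i, fun i i' => ?_⟩
    rw [← key x i i']
    exact hx i i'
  · intro hh ε hε
    obtain ⟨x, hx⟩ := hh ε hε
    refine ⟨Matrix.of fun j i => x j i, fun i i' => ?_⟩
    rw [key]
    exact hx i i'

/-- strongly purely infinite implies purely infinite -/
theorem pi_of_spi {A : Type u} [CStarAlgebra A] (h : StronglyPurelyInfinite A) :
    PurelyInfinite A := by
  let _ : PartialOrder A := CStarAlgebra.spectralOrder A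
  have _ : StarOrderedRing A := CStarAlgebra.spectralOrderedRing A
  intro b
  rw [propInf_iff]
  intro ε hε
  set g : A := star b * b with hg
  have hgp : 0 ≤ g := star_mul_self_nonneg b
  set x : A := CFC.sqrt g with hx
  have hxp : 0 ≤ x := CFC.sqrt_nonneg g
  have hxs : star x = x := (IsSelfAdjoint.of_nonneg hxp).star_eq
  have hxx : x ^ 2 = g := by rw [sq, hx, CFC.sqrt_mul_sqrt_self g hgp]
  have hxa : ∃ a, x = star a * a := by
    refine ⟨CFC.sqrt x, ?_⟩
    rw [(IsSelfAdjoint.of_nonneg (CFC.sqrt_nonneg x)).star_eq, CFC.sqrt_mul_sqrt_self x hxp]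
  obtain ⟨s, t, h1, h2, h3⟩ := h x x hxa hxa ε hε
  rw [hxx] at h1 h2
  have h3' : ‖star s * g * t‖ < ε := by
    have : star s * x * x * t = star s * g * t := by rw [← hxx, sq]; simp only [mul_assoc]
    rwa [this] at h3
  have h4 : ‖star t * g * s‖ < ε := by
    have : star t * g * s = star (star s * g * t) := by
      rw [star_mul, star_mul, star_star, (IsSelfAdjoint.of_nonneg hgp).star_eq, mul_assoc]
    rw [this, norm_star]
    exact h3'
  refine ⟨fun _ i => Sum.elim (fun _ => s) (fun _ => t) i, ?_⟩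
  rintro (i | i) (i' | i')
  · have : i = i' := Subsingleton.elim _ _
    simpa [this] using h1
  · simpa using h3'
  · simpa using h4
  · have : i = i' := Subsingleton.elim _ _
    simpa [this] using h2

theorem exists_blk {D : Type u} [CStarAlgebra D] [Nontrivial D] (hD : HasCopies D)
    (h : IsEmpty (D →⋆ₐ[ℂ] ℂ)) (q : ℕ) :
    ∃ (m : ℕ) (ε : ℝ), Nonempty (Blk q m ε D) := by
  let _ : PartialOrder D := CStarAlgebra.spectralOrder _
  have _ : StarOrderedRing D := CStarAlgebra.spectralOrderedRing _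
  obtain ⟨z, hz, hz1, hzf⟩ := exists_z hD (exists_witness h)
  obtain ⟨N, hN, hf⟩ := far_full z hz hz1 hzf 7
  obtain ⟨E, h01, h10, h0, h1⟩ := exists_orth hD z hz N hN hf
  obtain ⟨y, hy, hyf⟩ := exists_sqz hD E h01 h10 h0 h1
  obtain ⟨φ, hφ, hp, hφf⟩ := oz_two y hy hyf
  obtain ⟨ψ, hψ, hp', hψf⟩ := oz_pow hD φ hφ hp hφf q
  obtain ⟨n, ε, hε, hε1, hβ⟩ := blk_exists ψ hψ hp' hψf
  exact ⟨n, ε, hβ⟩

theorem core (A : Type u) [CStarAlgebra A] [Nontrivial A] [TopologicalSpace.SeparableSpace A]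
    (ω : Ultrafilter ℕ) (hω : (ω : Filter ℕ) ≤ atTop) (hF : IsEmpty (Fom A ω →⋆ₐ[ℂ] ℂ))
    {n : ℕ} (hn : 1 ≤ n) (h : ∀ b : A, Cmp (star b * b) (Fin n ⊕ Fin n) (Fin n)) (x y : A)
    (hx : star x = x) (hy : star y = y) (ε : ℝ) (hε : 0 < ε) :
    ∃ s t : A, ‖star s * (x * x) * s - x * x‖ < ε ∧ ‖star t * (y * y) * t - y * y‖ < ε ∧
      ‖star s * x * y * t‖ < ε := by
  obtain ⟨m, ε', ⟨β⟩⟩ := exists_blk (fom_hasCopies A ω hω) hF (2 * n)
  have h' : ∀ b : A, Cmp (star b * b) (Fin m) (Fin n) := fun b => cmp_all hn (h b) m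
  let ι₁ : Fin n → Fin (2 * n + 1) := fun i => ⟨i, by omega⟩
  let ι₂ : Fin n → Fin (2 * n + 1) := fun i => ⟨n + i, by omega⟩
  have hι₁ : Function.Injective ι₁ := fun i j hij => by
    have := congrArg Fin.val hij
    exact Fin.ext this
  have hι₂ : Function.Injective ι₂ := fun i j hij => by
    have h1 : n + (i : ℕ) = n + (j : ℕ) := congrArg Fin.val hij
    exact Fin.ext (by omega)
  have hne : ∀ i j, ι₁ i ≠ ι₂ j := fun i j hij => by
    have h1 : (i : ℕ) = n + (j : ℕ) := congrArg Fin.val hij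
    have := i.isLt
    omega
  obtain ⟨w₁, hw₁⟩ := half h' β ι₁ hι₁ x hx ε hε
  obtain ⟨w₂, hw₂⟩ := half h' β ι₂ hι₂ y hy ε hε
  set s : Aom A ω := ∑ i, (β.b (ι₁ i) : Aom A ω) * w₁ i with hs
  set t : Aom A ω := ∑ i, (β.b (ι₂ i) : Aom A ω) * w₂ i with ht
  set X : Aom A ω := omk A ω (cst A x) with hX
  set Y : Aom A ω := omk A ω (cst A y) with hY
  have h0 : star s * X * Y * t = 0 := by
    rw [hs, ht, star_sum]
    simp only [Finset.sum_mul, Finset.mul_sum, star_mul]
    refine Finset.sum_eq_zero fun j _ => Finset.sum_eq_zero fun i _ => ?_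
    have c1 : star (β.b (ι₁ i) : Aom A ω) * X = X * star (β.b (ι₁ i) : Aom A ω) :=
      fom_comm (star (β.b (ι₁ i))) x
    have c2 : star (β.b (ι₁ i) : Aom A ω) * Y = Y * star (β.b (ι₁ i) : Aom A ω) :=
      fom_comm (star (β.b (ι₁ i))) y
    have c3 : star (β.b (ι₁ i) : Aom A ω) * (β.b (ι₂ j) : Aom A ω) = 0 :=
      congrArg Subtype.val (β.borth (ι₁ i) (ι₂ j) (hne i j))
    calc star (w₁ i) * star (β.b (ι₁ i) : Aom A ω) * X * Y * ((β.b (ι₂ j) : Aom A ω) * w₂ j)
        = star (w₁ i) * ((star (β.b (ι₁ i) : Aom A ω) * X) * Y) *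
            ((β.b (ι₂ j) : Aom A ω) * w₂ j) := by simp only [mul_assoc]
      _ = star (w₁ i) * (X * Y * (star (β.b (ι₁ i) : Aom A ω) * (β.b (ι₂ j) : Aom A ω))) *
            w₂ j := by
          rw [c1, mul_assoc X, c2]
          simp only [mul_assoc]
      _ = 0 := by rw [c3]; simp
  obtain ⟨S, hS⟩ := omk_surjective A ω s
  obtain ⟨T, hT⟩ := omk_surjective A ω t
  have t1 := omk_norm A ω (star S * (cst A x * cst A x) * S - cst A x * cst A x)
  have t2 := omk_norm A ω (star T * (cst A y * cst A y) * T - cst A y * cst A y)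
  have t3 := omk_norm A ω (star S * cst A x * cst A y * T)
  have e1 : ‖omk A ω (star S * (cst A x * cst A x) * S - cst A x * cst A x)‖ < ε := by
    simp only [map_sub, map_mul, map_star, hS]
    exact hw₁
  have e2 : ‖omk A ω (star T * (cst A y * cst A y) * T - cst A y * cst A y)‖ < ε := by
    simp only [map_sub, map_mul, map_star, hT]
    exact hw₂
  have e3 : ‖omk A ω (star S * cst A x * cst A y * T)‖ < ε := by
    simp only [map_mul, map_star, hS, hT]
    rw [h0, norm_zero]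
    exact hε
  obtain ⟨k, ⟨k1, k2⟩, k3⟩ := (((t1.eventually (gt_mem_nhds e1)).and
    (t2.eventually (gt_mem_nhds e2))).and (t3.eventually (gt_mem_nhds e3))).exists
  exact ⟨S k, T k, k1, k2, k3⟩

theorem main (A : Type u) [CStarAlgebra A] [Nontrivial A] [TopologicalSpace.SeparableSpace A]
    (ω : Ultrafilter ℕ) (hω : (ω : Filter ℕ) ≤ Filter.cofinite)
    (F : Type u) [CStarAlgebra F] (π : (ℕ → A) → F) (hF : IsFomega A ω F π)
    (hchar : IsEmpty (F →⋆ₐ[ℂ] ℂ)) :
    (WeaklyPurelyInfinite A ↔ PurelyInfinite A) ∧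
      (PurelyInfinite A ↔ StronglyPurelyInfinite A) := by
  rw [Nat.cofinite_eq_atTop] at hω
  have hFom : IsEmpty (Fom A ω →⋆ₐ[ℂ] ℂ) := by
    obtain ⟨θ⟩ := fomega_to_fom hF
    exact ⟨fun χ => hchar.false (χ.comp θ)⟩
  have h1 : WeaklyPurelyInfinite A → StronglyPurelyInfinite A := by
    rintro ⟨n, hn, h⟩ x y ⟨a, rfl⟩ ⟨b, rfl⟩ ε hε
    have h' : ∀ b : A, Cmp (star b * b) (Fin n ⊕ Fin n) (Fin n) := fun b =>
      (propInf_iff n _).1 (h b)
    obtain ⟨s, t, k1, k2, k3⟩ := core A ω hω hFom hn h' (star a * a) (star b * b)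
      (by rw [star_mul, star_star]) (by rw [star_mul, star_star]) ε hε
    refine ⟨s, t, ?_, ?_, k3⟩
    · rw [sq]; exact k1
    · rw [sq]; exact k2
  have h2 : PurelyInfinite A → WeaklyPurelyInfinite A := fun h => ⟨1, le_rfl, h⟩
  exact ⟨⟨fun h => pi_of_spi (h1 h), h2⟩, ⟨fun h => h1 (h2 h), pi_of_spi⟩⟩

end Vale.Agent.P133K
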